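import Vale.Agent.P155.NO801.YI
import Vale.Agent.P155.NO801.YS
import Vale.Agent.P155.T211Q.ContSame
import Vale.Agent.P155.U.Bump

/-!
# P155 (SW): the restriction property of Sheffield and Werner: definitions and literal Props
-/

namespace Vale.Agent.P155.SWR

open MeasureTheory Filter Topology TopologicalSpace ProbabilityTheory Vale.Agent.P155
  Vale.Agent.P155.Q1 Vale.Agent.P155.Uq Vale.Agent.P155.UK

/-- `K` together with the closures of the holes of `s` (in `Ω`) whose closure meets `K`. -/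
def KK (Ω K s : Set ℂ) : Set ℂ :=
  K ∪ ⋃₀ {C | ∃ U, IsHole Ω s U ∧ (closure U ∩ K).Nonempty ∧ C = closure U}

/-- the weight `exp (i √(π/2) H - E/2)` -/
noncomputable def wt (a e : ℝ) : ℂ := Complex.exp (Complex.I * Real.sqrt (Real.pi / 2) * a - e / 2)

/-- the height of level `1` tested against `φ` -/
noncomputable def hgt {Θ : Type} (Ω : Set ℂ) (G : ℕ → Θ → NonemptyCompacts ℂ)
    (ξ : ℕ → ℕ → Θ → ℝ) (k : ℕ) (x : Θ) (φ : ℂ → ℝ) : ℝ :=
  ∫ z, height Ω (fun j => G j x) (fun j i => ξ j i x) k z * φ z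

/-- `|∇ψ|²` -/
noncomputable def dir2 (ψ : ℂ → ℝ) : ℝ := ∫ z, ‖fderiv ℝ ψ z‖ ^ 2

/-- **Block (1)-(3), SDL**: the Schwinger-Dyson identity given the part `KK` touched by `K`. -/
def SDL : Prop := ∀ Ω : Set ℂ, IsOpen Ω → Bornology.IsBounded Ω → Ω.Nonempty →
  SimplyConnectedSpace Ω → ∀ {Θ : Type} [MeasurableSpace Θ] (P : Measure Θ)
    (G : ℕ → Θ → NonemptyCompacts ℂ) (ξ : ℕ → ℕ → Θ → ℝ), T211Q.FairCarpets P Ω G ξ →
  ∀ K : Set ℂ, IsClosed K → IsConnected K → Ωᶜ ⊆ K →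
  (∀ z, AEMeasurable (fun x => Metric.infDist z (KK Ω K (G 1 x))) P) ∧
  ∀ (m : ℕ) (z : Fin m → ℂ) (f : (Fin m → ℝ) → ℝ), Continuous f → (∃ C, ∀ y, |f y| ≤ C) →
  ∀ χ ψ : ℂ → ℝ, IsTest Ω χ → IsTest Ω ψ →
  (∃ (I : Finset (Fin m)) (r : Fin m → ℝ), (∀ i ∈ I, 0 < r i) ∧
    (∀ y, f y ≠ 0 → ∀ i ∈ I, r i < y i) ∧ tsupport ψ ⊆ ⋃ i ∈ I, Metric.ball (z i) (r i)) →
  ∫ x, (f (fun i => Metric.infDist (z i) (KK Ω K (G 1 x))) : ℂ) *
      wt (hgt Ω G ξ 1 x (fun w => χ w - lapC ψ w))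
        (greenEnergy (Ω \ (G 1 x : Set ℂ)) (fun w => χ w - lapC ψ w)) ∂P =
    Complex.exp (-(∫ w, ψ w * χ w) - dir2 ψ / 2) *
    ∫ x, (f (fun i => Metric.infDist (z i) (KK Ω K (G 1 x))) : ℂ) *
      wt (hgt Ω G ξ 1 x χ) (greenEnergy (Ω \ (G 1 x : Set ℂ)) χ) ∂P

/-- **Block (4), POT**: deterministic potential theory in an open set with simply connected
components: functions `ψ n` such that `g n = φ + Δ ψ n` has energy tending to `0` and does not
see small sets which stay inside `W`. -/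
def POT : Prop := ∀ W : Set ℂ, IsOpen W → Bornology.IsBounded W →
  (∀ z ∈ W, SimplyConnectedSpace (connectedComponentIn W z)) → ∀ φ, IsTest W φ →
  ∃ ψ : ℕ → ℂ → ℝ, (∀ n, IsTest W (ψ n)) ∧
    Tendsto (fun n => greenEnergy W (fun z => φ z + lapC (ψ n) z)) atTop (𝓝 0) ∧
    ∀ U : ℕ → Set ℂ, (∀ i, IsOpen (U i)) → Pairwise (Function.onFun Disjoint U) →
      (∀ i, closure (U i) ⊆ W) → (∀ ε : ℝ, 0 < ε → {i | ε < Metric.diam (U i)}.Finite) →
      (∀ n, Summable fun i => (∫ z in U i, (φ z + lapC (ψ n) z)) ^ 2) ∧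
      Tendsto (fun n => ∑' i, (∫ z in U i, (φ z + lapC (ψ n) z)) ^ 2) atTop (𝓝 0)

/-- (4), exact decomposition of the energy (completing the square) -/
def SQUARE : Prop := ∀ W : Set ℂ, IsOpen W → Bornology.IsBounded W → ∀ φ ψ, IsTest W φ →
  IsTest W ψ → greenEnergy W φ = 2 * (∫ z, φ z * ψ z) - dir2 ψ +
    greenEnergy W (fun z => φ z + lapC ψ z)

/-- **Block (5), DJ**: the closures of two distinct holes of the first carpet are disjoint. -/
def DJ : Prop := ∀ Ω : Set ℂ, IsOpen Ω → Bornology.IsBounded Ω → Ω.Nonempty →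
  SimplyConnectedSpace Ω → ∀ {Θ : Type} [MeasurableSpace Θ] (P : Measure Θ)
    (G : ℕ → Θ → NonemptyCompacts ℂ) (ξ : ℕ → ℕ → Θ → ℝ), T211Q.FairCarpets P Ω G ξ →
  ∀ᵐ x ∂P, ∀ U U', IsHole Ω (G 1 x) U → IsHole Ω (G 1 x) U' → U ≠ U' →
    Disjoint (closure U) (closure U')

/-- the loops of the carpets: the first-level holes have Jordan boundaries inside `Ω`, and are
locally finite (known, for the consumers) -/
structure Nice1 (Ω : Set ℂ) (s : Set ℂ) : Prop where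
  inside : ∀ U, IsHole Ω s U → closure U ⊆ Ω
  fin : ∀ ε : ℝ, 0 < ε → {U | IsHole Ω s U ∧ ε < Metric.diam U}.Finite
  disj : ∀ U U', IsHole Ω s U → IsHole Ω s U' → U ≠ U' → Disjoint (closure U) (closure U')

/-- the almost sure properties of the canonical carpets and heights -/
structure Path (Ω : Set ℂ) (s : Sp Ω) : Prop where
  zero : ((s 0).1 : Set ℂ) = frontier Ω ∧ (s 0).2 = 0
  bdd : ∀ k : ℕ, ∀ᵐ z ∂(volume.restrict Ω : Measure ℂ), |(s k).2 z| ≤ (k : ℝ)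
  mono : ∀ k, ((s k).1 : Set ℂ) ⊆ (s (k + 1)).1 ∧ ((s k).1 : Set ℂ) ⊆ closure Ω
  conn : ∀ k, IsConnected ((s k).1 : Set ℂ)
  null : ∀ k, volume (((s k).1 : Set ℂ) ∩ Ω) = 0
  sign : ∀ k, ∀ z r, 0 < r → Metric.closedBall z r ⊆ Ω →
    Disjoint (Metric.closedBall z r) ((s (k + 1)).1 : Set ℂ) → ∃ t : ℝ, (t = 1 ∨ t = -1) ∧
    ∀ᵐ w ∂(volume.restrict Ω : Measure ℂ), w ∈ Metric.ball z r →
      (s (k + 1)).2 w - (s k).2 w = t
  nice : Nice1 Ω (s 1).1

/-- **Block (6a), KSTEP**: the kernel given `KK`; given `y`, off `b y`, the levels `≥ 1` are signed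
carpets over `b y`. -/
def KSTEP : Prop := ∀ Ω : Set ℂ, IsOpen Ω → Bornology.IsBounded Ω → Ω.Nonempty →
  SimplyConnectedSpace Ω → ∀ Q : Measure (Sp Ω), Canon Ω Q →
  ∀ K : Set ℂ, IsClosed K → IsConnected K → Ωᶜ ⊆ K →
  ∃ (X : Type) (_ : MeasurableSpace X) (ν : Measure X) (κ : Kernel X (Sp Ω)) (b : X → Set ℂ),
    IsProbabilityMeasure ν ∧ IsMarkovKernel κ ∧ ν.bind κ = Q ∧
    ∀ᵐ y ∂ν, (∀ᵐ s ∂(κ y), KK Ω K (s 1).1 = b y ∧ Path Ω s) ∧
      (∀ φ, IsTest (b y)ᶜ φ →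
        ∫ s, wt (pr (s 1).2 φ) (greenEnergy (Ω \ (s 1).1) φ) ∂(κ y) =
          Complex.exp (-greenEnergy (b y)ᶜ φ / 2)) ∧
      ∀ k : ℕ, 1 ≤ k → ∀ φ : ℂ → ℝ, IsTest Ω φ → ∀ Ψ : Past Ω k → ℝ, BM Ψ →
        ∫ s, (Ψ (past k s) : ℂ) * wt (pr (s (k + 1)).2 φ - pr (s k).2 φ)
            (greenEnergy (Ω \ (s (k + 1)).1) φ) ∂(κ y) =
          ∫ s, (Ψ (past k s) : ℂ) * Complex.exp (-greenEnergy (Ω \ (s k).1) φ / 2) ∂(κ y)

/-- the carpets in the closure of `V`, starting with the boundary of `V` -/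
noncomputable def rs0 (V : Set ℂ) (s : NO801.Y.SQ) : NO801.Y.SQ := fun k =>
  if k = 0 then toNC (frontier V) else toNC ((s k : Set ℂ) ∩ closure V)

/-- **Block (6b), RESTR**: the restriction property for the carpets. -/
def RESTR : Prop := ∀ Ω : Set ℂ, IsOpen Ω → Bornology.IsBounded Ω → Ω.Nonempty →
  SimplyConnectedSpace Ω → ∀ (Θ : Type) (_ : MeasurableSpace Θ) (P : Measure Θ)
    (G : ℕ → Θ → NonemptyCompacts ℂ) (H : ℕ → Θ → (ℂ → ℝ) → ℝ), IsProbabilityMeasure P →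
    IsSignedCarpets P Ω G H →
  ∀ K : Set ℂ, IsClosed K → IsConnected K → Ωᶜ ⊆ K →
  ∃ (X : Type) (_ : MeasurableSpace X) (ν : Measure X) (κ : Kernel X NO801.Y.SQ)
    (b : X → Set ℂ), IsProbabilityMeasure ν ∧ IsMarkovKernel κ ∧
    P.map (fun x k => G k x) = ν.bind κ ∧
    ∀ᵐ y ∂ν, (∀ᵐ s ∂(κ y), KK Ω K (s 1) = b y) ∧
      (∀ (m : ℕ) (V : Fin m → Set ℂ), Function.Injective V → (∀ i, IsHole Ω (b y) (V i)) →
        (∀ i, AEMeasurable (fun s => rs0 (V i) s) (κ y)) ∧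
        iIndepFun (fun i s => rs0 (V i) s) (κ y)) ∧
      ∀ V, IsHole Ω (b y) V →
        ∀ (Θ' : Type) (_ : MeasurableSpace Θ') (P' : Measure Θ')
          (G' : ℕ → Θ' → NonemptyCompacts ℂ) (H' : ℕ → Θ' → (ℂ → ℝ) → ℝ),
          IsProbabilityMeasure P' → IsSignedCarpets P' V G' H' →
          (κ y).map (rs0 V) = P'.map (fun x k => G' k x)

/-! ## The final statement -/

/-- Distinct holes of the first carpet have disjoint closures: the loops are disjoint. -/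
def Disj {Θ : Type} [MeasurableSpace Θ] (P : Measure Θ) (Ω : Set ℂ)
    (G : ℕ → Θ → NonemptyCompacts ℂ) : Prop :=
  ∀ᵐ x ∂P, ∀ U U', IsHole Ω (G 1 x) U → IsHole Ω (G 1 x) U' → U ≠ U' →
    Disjoint (closure U) (closure U')

/-- **Restriction property** (Sheffield, Werner): let `K` be closed and connected and contain the
complement of `Ω`; let `KK` be the union of `K` and of the closures of the first-level holes which
meet `K`.  The law of the carpets is a mixture `∫ κ y dν(y)` such that, for almost every `y`, under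
`κ y`: `KK = b y`; every loop lies in `b y` or in a component `V` of its complement; the
collections of the loops in distinct components are independent; that of the loops in the
component `V` is nested CLE₄ in `V`. -/
def Restr {Θ : Type} [MeasurableSpace Θ] (P : Measure Θ) (Ω : Set ℂ)
    (G : ℕ → Θ → NonemptyCompacts ℂ) (Γ : Θ → LoopColl) : Prop :=
  ∀ K : Set ℂ, IsClosed K → IsConnected K → Ωᶜ ⊆ K →
  ∃ (X : Type) (_ : MeasurableSpace X) (ν : Measure X)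
    (κ : Kernel X (ℕ → NonemptyCompacts ℂ)) (b : X → Set ℂ)
    (C : (ℕ → NonemptyCompacts ℂ) → LoopColl), IsProbabilityMeasure ν ∧
    IsMarkovKernel κ ∧ P.map (fun x k => G k x) = ν.bind κ ∧
    AEMeasurable C (P.map fun x k => G k x) ∧ (∀ᵐ x ∂P, C (fun k => G k x) = Γ x) ∧
    ∀ᵐ y ∂ν, (∀ᵐ s ∂(κ y), HoleLoops Ω s (C s) ∧ KK Ω K (s 1) = b y ∧
        ∀ l, (C s).mult l ≠ 0 → NCLE.LIn l (b y) ∨ ∃ V, IsHole Ω (b y) V ∧ NCLE.LIn l V) ∧
      ∀ (m : ℕ) (V : Fin m → Set ℂ), Function.Injective V → (∀ i, IsHole Ω (b y) (V i)) →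
        iIndepFun (fun i s => NCLE.inside (C s) (V i)) (κ y) ∧
        ∀ i, IsOpen (V i) ∧ SimplyConnectedSpace (V i) ∧
          AEMeasurable (fun s => NCLE.inside (C s) (V i)) (κ y) ∧
          IsNestedCLE4 (V i) ((κ y).map fun s => NCLE.inside (C s) (V i))

end Vale.Agent.P155.SWR
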