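import Vale.Agent.P155.NO801.YS

/-!
# P155: nested CLE₄: disjointness of the loops and the restriction property
-/

namespace Vale.Agent.P155.NCLE

open MeasureTheory Filter Topology TopologicalSpace ProbabilityTheory Vale.Agent.P155
  Vale.Agent.P155.Q1

/-- `K` together with the closures of the holes of `s` (in `Ω`) whose closures meet `K`. -/
def hull (Ω K s : Set ℂ) : Set ℂ :=
  K ∪ ⋃₀ {C | ∃ U, IsHole Ω s U ∧ (closure U ∩ K).Nonempty ∧ C = closure U}

/-- **Disjointness**: the closures of distinct holes of the first carpet are disjoint. -/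
def Disj {Θ : Type} [MeasurableSpace Θ] (P : Measure Θ) (Ω : Set ℂ)
    (G : ℕ → Θ → NonemptyCompacts ℂ) : Prop :=
  ∀ᵐ x ∂P, ∀ U U', IsHole Ω (G 1 x) U → IsHole Ω (G 1 x) U' → U ≠ U' →
    Disjoint (closure U) (closure U')

noncomputable local instance instNC' : MeasurableSpace (NonemptyCompacts ℂ) := borel _

/-- **Restriction property** (Sheffield, Werner): let `K` be closed and connected and contain the
complement of `Ω`, and let its hull be the union of `K` and of the closed holes of the first carpet
which meet `K`.  The law of the carpets is a mixture `∫ κ y dν(y)` such that, for almost every `y`,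
under `κ y`: the hull is `b y`; every loop lies in `b y` or in a component `V` of its complement;
the collections of the loops in distinct components are independent; that of the loops in the
component `V` is nested CLE₄ in `V`. -/
def Restr {Θ : Type} [MeasurableSpace Θ] (P : Measure Θ) (Ω : Set ℂ)
    (G : ℕ → Θ → NonemptyCompacts ℂ) (Γ : Θ → LoopColl) : Prop :=
  ∀ K : Set ℂ, IsClosed K → IsConnected K → Ωᶜ ⊆ K →
  ∃ (X : Type) (_ : MeasurableSpace X) (ν : Measure X)
    (κ : Kernel X (ℕ → NonemptyCompacts ℂ)) (b : X → Set ℂ)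
    (C : (ℕ → NonemptyCompacts ℂ) → LoopColl), IsProbabilityMeasure ν ∧
    IsMarkovKernel κ ∧ P.map (fun x k => G k x) = ν.bind κ ∧
    AEMeasurable C (P.map fun x k => G k x) ∧ (∀ᵐ x ∂P, C (fun k => G k x) = Γ x) ∧
    ∀ᵐ y ∂ν, (∀ᵐ s ∂(κ y), HoleLoops Ω s (C s) ∧ hull Ω K (s 1) = b y ∧
        ∀ l, (C s).mult l ≠ 0 → LIn l (b y) ∨ ∃ V, IsHole Ω (b y) V ∧ LIn l V) ∧
      ∀ (m : ℕ) (V : Fin m → Set ℂ), Function.Injective V → (∀ i, IsHole Ω (b y) (V i)) →
        iIndepFun (fun i s => inside (C s) (V i)) (κ y) ∧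
        ∀ i, IsOpen (V i) ∧ SimplyConnectedSpace (V i) ∧
          AEMeasurable (fun s => inside (C s) (V i)) (κ y) ∧
          IsNestedCLE4 (V i) ((κ y).map fun s => inside (C s) (V i))

end Vale.Agent.P155.NCLE
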