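import Vale.Agent.P155.SW801.Top
import Vale.Agent.P155.NT34.YHSC

/-!
# P155 (SW), (K4c): the deterministic facts about `KK` for a path of canonical carpets
-/

namespace Vale.Agent.P155.SWR

open Set MeasureTheory Filter Topology TopologicalSpace ProbabilityTheory Vale.Agent.P155
  Vale.Agent.P155.Q1 Vale.Agent.P155.NO801.Y Metric Vale.Agent.P155.Uq

variable {Ω K : Set ℂ}

/-- the boundary of the complement of `KK` lies in the carpet -/
theorem frontier_compl_KK {A : NonemptyCompacts ℂ} (ho : IsOpen Ω)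
    (hfr : frontier Ω ⊆ (A : Set ℂ)) (hΩK : Ωᶜ ⊆ K) (hbc : IsClosed (KK Ω K A)) :
    frontier (KK Ω K A)ᶜ ⊆ (A : Set ℂ) := by
  intro w hw
  have hsub : (KK Ω K A)ᶜ ⊆ Ω := by
    intro x hx
    by_contra h
    exact hx (sub_KK _ _ _ (hΩK h))
  have hwc := frontier_subset_closure hw
  have h1 : w ∈ closure Ω := closure_mono hsub hwc
  have hwb : w ∈ KK Ω K A := by
    rw [hbc.isOpen_compl.frontier_eq] at hw
    exact not_not.1 hw.2
  by_cases hwΩ : w ∈ Ω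
  · by_contra hwA
    set U := connectedComponentIn (Ω \ (A : Set ℂ)) w with hUd
    have hU : IsHole Ω A U := ⟨w, ⟨hwΩ, hwA⟩, rfl⟩
    have hwU : w ∈ U := mem_connectedComponentIn ⟨hwΩ, hwA⟩
    have ht := touched_of_meet ho hU hwU hwb
    obtain ⟨x, hx1, hx2⟩ := mem_closure_iff.1 hwc U (hole_isOpen ho hU) hwU
    exact hx2 (touched_sub hU ht (subset_closure hx1))
  · exact hfr (by rw [ho.frontier_eq]; exact ⟨h1, hwΩ⟩)

/-- **(K4c)** -/
theorem geo (ho : IsOpen Ω) (hb : Bornology.IsBounded Ω) (hK : IsClosed K)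
    (hKc : IsConnected K) (hΩK : Ωᶜ ⊆ K) {s : Sp Ω} (h : Path Ω s) :
    IsClosed (KK Ω K (s 1).1) ∧ Ωᶜ ⊆ KK Ω K (s 1).1 ∧
      (∀ z ∈ (KK Ω K (s 1).1)ᶜ,
        SimplyConnectedSpace (connectedComponentIn (KK Ω K (s 1).1)ᶜ z)) ∧
      frontier (KK Ω K (s 1).1)ᶜ ⊆ ((s 1).1 : Set ℂ) ∧
      ∀ U, IsHole Ω (s 1).1 U → (U ∩ (KK Ω K (s 1).1)ᶜ).Nonempty →
        closure U ⊆ (KK Ω K (s 1).1)ᶜ := by
  have hfc : IsConnected (frontier Ω) := by
    rw [← h.zero.1]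
    exact h.conn 0
  have hfr : frontier Ω ⊆ ((s 1).1 : Set ℂ) := by
    rw [← h.zero.1]
    exact (h.mono 0).1
  have hbc : IsClosed (KK Ω K (s 1).1) := isClosed_KK hK h.nice.fin hb
  have hbn : IsConnected (KK Ω K (s 1).1) := isConnected_KK hKc (s 1).1
  have hΩb : Ωᶜ ⊆ KK Ω K (s 1).1 := hΩK.trans (sub_KK _ _ _)
  refine ⟨hbc, hΩb, fun z hz => ?_, frontier_compl_KK ho hfr hΩK hbc, fun U hU hm => ?_⟩
  · have hzΩ : z ∈ Ω \ KK Ω K (s 1).1 := ⟨by
      by_contra h0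
      exact hz (hΩb h0), hz⟩
    have e : (KK Ω K (s 1).1)ᶜ = Ω \ KK Ω K (s 1).1 := by
      ext x
      constructor
      · intro hx
        exact ⟨by
          by_contra h0
          exact hx (hΩb h0), hx⟩
      · exact fun hx => hx.2
    rw [e]
    refine NT34.Y.hsc Ω (Ab Ω (KK Ω K (s 1).1)) _ ho hb
      (isConnected_Ab hb hfc hbc hbn hΩb ho) (frontier_sub_Ab hb hfc.nonempty hbc hΩb ho) ?_
    rw [isHole_Ab hb hfc.nonempty hbc hΩb ho]
    exact ⟨z, hzΩ, rfl⟩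
  · rcases hole_cases hΩK hU (fun U' hU' he => h.nice.disj U U' hU hU' he) with h3 | ⟨V, hV, h3⟩
    · obtain ⟨x, hx, hx'⟩ := hm
      exact absurd (h3 (subset_closure hx)) hx'
    · exact h3.trans fun x hx => (comp_sub hV hx).2

end Vale.Agent.P155.SWR
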