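import Vale.Agent.P155.SW801.Top
import Vale.Agent.P155.NO801.Y5

/-!
# P155 (SW): the loops in a component of the complement of `KK`
-/

namespace Vale.Agent.P155.SWR

open Set MeasureTheory Filter Topology TopologicalSpace ProbabilityTheory Vale.Agent.P155
  Vale.Agent.P155.Q1 Vale.Agent.P155.NO801.Y Vale.Agent.P155.EX Metric

section

variable {Ω K : Set ℂ} {s : SQ} {V : Set ℂ}

/-- the deterministic situation: `s` are carpets in `Ω`, `V` is a component of the complement of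
`KK` -/
structure Sit (Ω K : Set ℂ) (s : SQ) : Prop where
  ho : IsOpen Ω
  hb : Bornology.IsBounded Ω
  mon : Mon Ω s
  clo : IsClosed (KK Ω K (s 1))

theorem Sit.fr1 (h : Sit Ω K s) : frontier Ω ⊆ (s 1 : Set ℂ) := h.mon.fr.trans (h.mon.mono 0)

theorem comp_frontier_ne (h : Sit Ω K s) (hV : IsHole Ω (KK Ω K (s 1)) V) :
    (frontier V).Nonempty := by
  rw [nonempty_frontier_iff]
  refine ⟨?_, fun hu => ?_⟩
  · obtain ⟨z, hz, rfl⟩ := hV
    exact ⟨z, mem_connectedComponentIn hz⟩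
  · have : Bornology.IsBounded V := h.hb.subset ((comp_sub hV).trans sdiff_subset)
    rw [hu] at this
    exact NormedSpace.unbounded_univ ℂ ℂ this

theorem coe_rs0 (h : Sit Ω K s) (hV : IsHole Ω (KK Ω K (s 1)) V) {k : ℕ} (hk : 1 ≤ k) :
    (rs0 V s k : Set ℂ) = (s k : Set ℂ) ∩ closure V := by
  have hne : ((s k : Set ℂ) ∩ closure V).Nonempty := by
    obtain ⟨w, hw⟩ := comp_frontier_ne h hV
    exact ⟨w, h.mon.le hk (frontier_comp h.ho h.fr1 h.clo hV hw), frontier_subset_closure hw⟩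
  unfold rs0
  rw [if_neg (by omega)]
  unfold toNC
  rw [dif_pos ⟨(s k).isCompact.inter_right isClosed_closure, hne⟩]
  rfl

theorem diff_rs0 (h : Sit Ω K s) (hV : IsHole Ω (KK Ω K (s 1)) V) {k : ℕ} (hk : 1 ≤ k) :
    V \ (rs0 V s k : Set ℂ) = V \ (s k : Set ℂ) := by
  rw [coe_rs0 h hV hk]
  ext w
  constructor
  · rintro ⟨h1, h2⟩
    exact ⟨h1, fun h3 => h2 ⟨h3, subset_closure h1⟩⟩
  · rintro ⟨h1, h2⟩
    exact ⟨h1, fun h3 => h2 h3.1⟩

/-- a hole of any level which meets `V` lies in `V` -/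
theorem sub_of_meet (h : Sit Ω K s) (hV : IsHole Ω (KK Ω K (s 1)) V) {k : ℕ} (hk : 1 ≤ k)
    {U : Set ℂ} (hU : IsHole Ω (s k) U) (hm : (U ∩ V).Nonempty) : U ⊆ V := by
  obtain ⟨x, hx, hxV⟩ := hm
  have hx1 : x ∈ Ω \ (s 1 : Set ℂ) :=
    ⟨(hole_sub hU hx).1, fun h3 => (hole_sub hU hx).2 (h.mon.le hk h3)⟩
  have hW : IsHole Ω (s 1) (connectedComponentIn (Ω \ (s 1 : Set ℂ)) x) := ⟨x, hx1, rfl⟩
  have h1 := hole_sub_comp h.ho hW hV ⟨x, mem_connectedComponentIn hx1, hxV⟩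
  refine Subset.trans ?_ h1
  refine (hole_conn hU).isPreconnected.subset_connectedComponentIn hx ?_
  exact (hole_sub hU).trans (sdiff_subset_sdiff_right (h.mon.le hk))

theorem isHole_rs0 (h : Sit Ω K s) (hV : IsHole Ω (KK Ω K (s 1)) V) {k : ℕ} (hk : 1 ≤ k)
    (U : Set ℂ) : IsHole V (rs0 V s k) U ↔ IsHole Ω (s k) U ∧ U ⊆ V := by
  have hVΩ : V ⊆ Ω := (comp_sub hV).trans sdiff_subset
  have key : ∀ z, z ∈ V \ (s k : Set ℂ) → connectedComponentIn (V \ (rs0 V s k : Set ℂ)) z =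
      connectedComponentIn (Ω \ (s k : Set ℂ)) z := by
    intro z hz
    rw [diff_rs0 h hV hk]
    have hz' : z ∈ Ω \ (s k : Set ℂ) := ⟨hVΩ hz.1, hz.2⟩
    refine Subset.antisymm (connectedComponentIn_mono z (sdiff_subset_sdiff_left hVΩ)) ?_
    have h1 := sub_of_meet h hV hk (U := connectedComponentIn (Ω \ (s k : Set ℂ)) z)
      ⟨z, hz', rfl⟩ ⟨z, mem_connectedComponentIn hz', hz.1⟩
    exact isPreconnected_connectedComponentIn.subset_connectedComponentIn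
      (mem_connectedComponentIn hz') fun w hw => ⟨h1 hw, (connectedComponentIn_subset _ _ hw).2⟩
  constructor
  · rintro ⟨z, hz, rfl⟩
    have hz2 := hz
    rw [diff_rs0 h hV hk] at hz2
    refine ⟨⟨z, ⟨hVΩ hz2.1, hz2.2⟩, key z hz2⟩, ?_⟩
    exact (connectedComponentIn_subset _ _).trans sdiff_subset
  · rintro ⟨⟨z, hz, rfl⟩, hU⟩
    have hz' : z ∈ V \ (s k : Set ℂ) := ⟨hU (mem_connectedComponentIn hz), hz.2⟩
    refine ⟨z, ?_, (key z hz').symm⟩
    rw [diff_rs0 h hV hk]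
    exact hz'

/-- the loops inside `V` are the loops of the carpets in `V` -/
theorem inside_rs0 (h : Sit Ω K s) (hV : IsHole Ω (KK Ω K (s 1)) V) {Γ Γ' : LoopColl}
    (hΓ : HoleLoops Ω s Γ) (hΓ' : HoleLoops V (rs0 V s) Γ') : NCLE.inside Γ V = Γ' := by
  classical
  have hVo := comp_open h.ho h.clo hV
  apply LoopColl.ext
  funext l
  show (if NCLE.LIn l V then Γ.mult l else 0) = Γ'.mult l
  rw [hΓ.mult, hΓ'.mult]
  by_cases hl : NCLE.LIn l V
  · rw [if_pos hl]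
    congr 1
    ext ⟨k, U⟩
    simp only [mem_ofPred_eq]
    constructor
    · rintro ⟨h1, h2, c, hc, hcl⟩
      have hf : frontier U ⊆ V := by
        rw [← hc.2]
        exact hl c hcl
      refine ⟨h1, (isHole_rs0 h hV h1 U).2 ⟨h2, ?_⟩, c, hc, hcl⟩
      obtain ⟨w, hw⟩ := frontier_ne h.hb h2
      obtain ⟨x, hx1, hx2⟩ := mem_closure_iff.1 (frontier_subset_closure hw) V hVo (hf hw)
      exact sub_of_meet h hV h1 h2 ⟨x, hx2, hx1⟩
    · rintro ⟨h1, h2, c, hc, hcl⟩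
      exact ⟨h1, ((isHole_rs0 h hV h1 U).1 h2).1, c, hc, hcl⟩
  · rw [if_neg hl]
    have e : {p : ℕ × Set ℂ | 1 ≤ p.1 ∧ IsHole V (rs0 V s p.1) p.2 ∧
        ∃ c : PL, IsJordan c (frontier p.2) ∧ SeparationQuotient.mk c = l} = ∅ := by
      rw [eq_empty_iff_forall_notMem]
      rintro ⟨k, U⟩ ⟨h1, h2, c, hc, hcl⟩
      apply hl
      have hr : range c.c ⊆ V := by
        rw [hc.2]
        exact hΓ'.inside k U h1 h2
      intro γ hγ
      rw [range_eq_of_mk (hγ.trans hcl.symm)]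
      exact hr
    rw [e, ncard_empty]

/-- every loop lies in `KK` or in a component of its complement -/
theorem loop_cases0 (h : Sit Ω K s) (hΩK : Ωᶜ ⊆ K) {Γ : LoopColl} (hΓ : HoleLoops Ω s Γ)
    (hdj : ∀ U U', IsHole Ω (s 1) U → IsHole Ω (s 1) U' → U ≠ U' →
      Disjoint (closure U) (closure U')) (l : Loop) (hl : Γ.mult l ≠ 0) :
    NCLE.LIn l (KK Ω K (s 1)) ∨ ∃ V, IsHole Ω (KK Ω K (s 1)) V ∧ NCLE.LIn l V := by
  rw [hΓ.mult] at hl
  obtain ⟨⟨k, U⟩, h1, h2, c, hc, hcl⟩ := nonempty_of_ncard_ne_zero hl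
  simp only at h1 h2 hc
  obtain ⟨z, hz, hUz⟩ := id h2
  have hz1 : z ∈ Ω \ (s 1 : Set ℂ) := ⟨hz.1, fun h3 => hz.2 (h.mon.le h1 h3)⟩
  have hW : IsHole Ω (s 1) (connectedComponentIn (Ω \ (s 1 : Set ℂ)) z) := ⟨z, hz1, rfl⟩
  have hUW : U ⊆ connectedComponentIn (Ω \ (s 1 : Set ℂ)) z := by
    rw [hUz]
    exact connectedComponentIn_mono z (sdiff_subset_sdiff_right (h.mon.le h1))
  have hfU : range c.c ⊆ closure (connectedComponentIn (Ω \ (s 1 : Set ℂ)) z) := by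
    rw [hc.2]
    exact frontier_subset_closure.trans (closure_mono hUW)
  have hin : ∀ S : Set ℂ, closure (connectedComponentIn (Ω \ (s 1 : Set ℂ)) z) ⊆ S →
      NCLE.LIn l S := by
    intro S hS γ hγ
    rw [range_eq_of_mk (hγ.trans hcl.symm)]
    exact hfU.trans hS
  rcases hole_cases hΩK hW (fun U' hU' he => hdj _ U' hW hU' he) with h3 | ⟨V, hV, h3⟩
  · exact Or.inl (hin _ h3)
  · exact Or.inr ⟨V, hV, hin _ h3⟩

end

end Vale.Agent.P155.SWR
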