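import Vale.Agent.P155.SW801.Top
import Vale.Agent.P155.T211Q.Hole

/-!
# P155 (SW): disjointness of the closures of the holes is a Borel property
-/

namespace Vale.Agent.P155.SWR

open Set MeasureTheory Filter Topology TopologicalSpace ProbabilityTheory Vale.Agent.P155
  Vale.Agent.P155.Q1 Vale.Agent.P155.NO801.Y Metric Vale.Agent.P155.T211Q Vale.Agent.P155.Uq

/-- the closures of distinct holes are disjoint -/
def DJs (Ω : Set ℂ) (A : Set ℂ) : Prop := ∀ U U', IsHole Ω A U → IsHole Ω A U' → U ≠ U' →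
  Disjoint (closure U) (closure U')

/-- the Borel form -/
def DJm (Ω : Set ℂ) (A : NonemptyCompacts ℂ) : Prop :=
  ∀ i j : ℕ, denseSeq ℂ i ∈ Ω → denseSeq ℂ j ∈ Ω →
    0 < bott (denseSeq ℂ i) (denseSeq ℂ i) A → 0 < bott (denseSeq ℂ j) (denseSeq ℂ j) A →
    ¬ 0 < bott (denseSeq ℂ i) (denseSeq ℂ j) A →
    ∃ n : ℕ, ∀ k l : ℕ, 0 < bott (denseSeq ℂ i) (denseSeq ℂ k) A →
      0 < bott (denseSeq ℂ j) (denseSeq ℂ l) A →
      1 / ((n : ℝ) + 1) ≤ dist (denseSeq ℂ k) (denseSeq ℂ l)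

theorem measurableSet_DJm (Ω : Set ℂ) : MeasurableSet {A : NonemptyCompacts ℂ | DJm Ω A} := by
  have hp : ∀ z z' : ℂ, Measurable (fun A : NonemptyCompacts ℂ => 0 < bott z z' A) := fun z z' =>
    measurableSet_setOfPred.1 (isOpen_lt continuous_const (continuous_bott z z')).measurableSet
  rw [measurableSet_setOfPred]
  unfold DJm
  refine Measurable.forall fun i => Measurable.forall fun j => ?_
  refine Measurable.imp measurable_const (Measurable.imp measurable_const ?_)
  refine Measurable.imp (hp _ _) (Measurable.imp (hp _ _) (Measurable.imp (hp _ _).not ?_))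
  refine Measurable.exists fun n => Measurable.forall fun k => Measurable.forall fun l => ?_
  exact Measurable.imp (hp _ _) (Measurable.imp (hp _ _) measurable_const)

theorem exists_dseq {U : Set ℂ} (hU : IsOpen U) (hne : U.Nonempty) : ∃ i, denseSeq ℂ i ∈ U :=
  (denseRange_denseSeq ℂ).exists_mem_open hU hne

theorem djs_iff {Ω : Set ℂ} (ho : IsOpen Ω) (hb : Bornology.IsBounded Ω) {A : NonemptyCompacts ℂ}
    (hfr : frontier Ω ⊆ (A : Set ℂ)) : DJs Ω A ↔ DJm Ω A := by
  have hi : ∀ {z : ℂ}, z ∈ Ω → ∀ z', z' ∈ connectedComponentIn (Ω \ (A : Set ℂ)) z ↔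
      0 < bott z z' A := fun hz z' => hole_iff ho A.isCompact.isClosed A.nonempty hfr hz z'
  have hself : ∀ {z : ℂ}, z ∈ Ω → 0 < bott z z A → z ∈ Ω \ (A : Set ℂ) := by
    intro z hz h
    exact connectedComponentIn_subset _ _ ((hi hz z).2 h)
  constructor
  · intro h i j hi1 hj1 hi2 hj2 hij
    set U := connectedComponentIn (Ω \ (A : Set ℂ)) (denseSeq ℂ i) with hU
    set U' := connectedComponentIn (Ω \ (A : Set ℂ)) (denseSeq ℂ j) with hU'
    have hUh : IsHole Ω A U := ⟨_, hself hi1 hi2, rfl⟩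
    have hUh' : IsHole Ω A U' := ⟨_, hself hj1 hj2, rfl⟩
    have hne : U ≠ U' := by
      intro he
      apply hij
      rw [← hi hi1, ← hU, he]
      exact mem_connectedComponentIn (hself hj1 hj2)
    have hd := h U U' hUh hUh' hne
    obtain ⟨δ, hδ, hδd⟩ := hd.exists_cthickenings (hole_bdd hb hUh).isCompact_closure
      isClosed_closure
    obtain ⟨n, hn⟩ := exists_nat_one_div_lt hδ
    refine ⟨n, fun k l hk hl => ?_⟩
    by_contra hlt
    push Not at hlt
    have h1 : denseSeq ℂ k ∈ closure U := subset_closure ((hi hi1 _).2 hk)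
    have h2 : denseSeq ℂ l ∈ closure U' := subset_closure ((hi hj1 _).2 hl)
    have h3 : denseSeq ℂ l ∈ cthickening δ (closure U) := by
      refine mem_cthickening_of_dist_le _ _ _ _ h1 ?_
      rw [dist_comm]
      linarith
    exact disjoint_left.1 hδd h3 (self_subset_cthickening _ h2)
  · intro h U U' hU hU' hne
    rw [disjoint_left]
    intro x hx hx'
    obtain ⟨i, hi0⟩ := exists_dseq (hole_isOpen ho hU) (hole_ne hU)
    obtain ⟨j, hj0⟩ := exists_dseq (hole_isOpen ho hU') (hole_ne hU')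
    have hiΩ := hole_sub hU hi0
    have hjΩ := hole_sub hU' hj0
    have eU := hole_eq hU hi0
    have eU' := hole_eq hU' hj0
    obtain ⟨n, hn⟩ := h i j hiΩ.1 hjΩ.1 ((hi hiΩ.1 _).1 (mem_connectedComponentIn hiΩ))
      ((hi hjΩ.1 _).1 (mem_connectedComponentIn hjΩ)) (fun h0 => hne (by
        have h1 := (hi hiΩ.1 _).2 h0
        rw [← eU] at h1
        exact hole_meet hU hU' ⟨_, h1, hj0⟩))
    have hr : (0 : ℝ) < 1 / (2 * ((n : ℝ) + 1)) := by positivity
    obtain ⟨k, hk⟩ := exists_dseq ((hole_isOpen ho hU).inter isOpen_ball)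
      (mem_closure_iff.1 hx _ isOpen_ball (mem_ball_self hr) |>.mono fun y hy => ⟨hy.2, hy.1⟩)
    obtain ⟨l, hl⟩ := exists_dseq ((hole_isOpen ho hU').inter isOpen_ball)
      (mem_closure_iff.1 hx' _ isOpen_ball (mem_ball_self hr) |>.mono fun y hy => ⟨hy.2, hy.1⟩)
    have h1 := hn k l ((hi hiΩ.1 _).1 (eU ▸ hk.1)) ((hi hjΩ.1 _).1 (eU' ▸ hl.1))
    have h2 : dist (denseSeq ℂ k) (denseSeq ℂ l) < 1 / ((n : ℝ) + 1) := by
      have h3 := dist_triangle_right (denseSeq ℂ k) (denseSeq ℂ l) x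
      have h4 := mem_ball.1 hk.2
      have h5 := mem_ball.1 hl.2
      have h6 : 1 / (2 * ((n : ℝ) + 1)) + 1 / (2 * ((n : ℝ) + 1)) = 1 / ((n : ℝ) + 1) := by
        field_simp
        norm_num
      linarith
    linarith

end Vale.Agent.P155.SWR
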