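import Vale.Agent.P155.SW801.Ins
import Vale.Agent.P155.SW801.Meas

/-!
# P155 (SW), block 7: the restriction property for the loops
-/

namespace Vale.Agent.P155.SWR

open Set MeasureTheory Filter Topology TopologicalSpace ProbabilityTheory Vale.Agent.P155
  Vale.Agent.P155.Q1 Vale.Agent.P155.NO801.Y Vale.Agent.P155.EX Metric

section

variable {Ω : Set ℂ} {Θ : Type} [MeasurableSpace Θ] {P : Measure Θ}
  {G : ℕ → Θ → NonemptyCompacts ℂ} {ξ : ℕ → ℕ → Θ → ℝ} {Γ : Θ → LoopColl}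

theorem fair_of (h : NCLE.Nested P Ω G ξ Γ) : T211Q.FairCarpets P Ω G ξ :=
  ⟨h.prob, h.measξ, h.sgn, h.fair, h.indξ, h.measG, h.indG, h.carp⟩

/-- disjointness of the loops of the first level -/
theorem disj_of (hD : DJ) (ho : IsOpen Ω) (hb : Bornology.IsBounded Ω)
    (hne : Ω.Nonempty) (hsc : SimplyConnectedSpace Ω) (h : NCLE.Nested P Ω G ξ Γ) :
    Disj P Ω G :=
  hD Ω ho hb hne hsc P G ξ (fair_of h)

/-- disjointness on the canonical space -/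
theorem lawS_dj (hD : DJ) (ho : IsOpen Ω) (hb : Bornology.IsBounded Ω)
    (hne : Ω.Nonempty) (hsc : SimplyConnectedSpace Ω) (hf : T211Q.FairCarpets P Ω G ξ) :
    ∀ᵐ s ∂(lawS P G), DJs Ω (s 1) := by
  have h1 : ∀ᵐ s ∂(lawS P G), DJm Ω (s 1) := by
    unfold lawS
    rw [ae_map_iff (measurable_seq hf).aemeasurable]
    · filter_upwards [hD Ω ho hb hne hsc P G ξ hf, hf.frontier_sub] with x hx hx'
      exact (djs_iff ho hb (hx' 1)).1 hx
    · have h0 : Measurable fun s : SQ => s 1 := measurable_pi_apply 1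
      exact h0 (measurableSet_DJm Ω)
  filter_upwards [h1, lawS_mon hf] with s hs hs'
  exact (djs_iff ho hb (hs'.fr.trans (hs'.mono 0))).2 hs

/-- the law of the loops in one component -/
theorem one_comp {V : Set ℂ} (ho : IsOpen V) (hb : Bornology.IsBounded V) (hne : V.Nonempty)
    (hsc : SimplyConnectedSpace V) {κ : Measure SQ}
    (hm : AEMeasurable (fun s => rs0 V s) κ)
    (hlaw : ∀ (Θ' : Type) (_ : MeasurableSpace Θ') (P' : Measure Θ')
      (G' : ℕ → Θ' → NonemptyCompacts ℂ) (H' : ℕ → Θ' → (ℂ → ℝ) → ℝ),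
      IsProbabilityMeasure P' → IsSignedCarpets P' V G' H' →
      κ.map (rs0 V) = P'.map (fun x k => G' k x)) :
    (∀ᵐ s ∂κ, HoleLoops V (rs0 V s) (Gam V (rs0 V s))) ∧
      AEMeasurable (Gam V) (κ.map (rs0 V)) ∧
      IsNestedCLE4 V ((κ.map (rs0 V)).map (Gam V)) := by
  obtain ⟨μ, hμ⟩ := EX.exists_nested_of pin_bdt.1 pin_bdt.2 EX.jord EX211.meas ho hb hne hsc
  obtain ⟨Θ', mΘ', P', G', ξ', Γ', h', -⟩ := YD.isNestedCLE4_iff.1 hμ
  have e := hlaw Θ' mΘ' P' G' _ h'.prob h'.carp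
  obtain ⟨h1, h2, h3⟩ := gam_law ho hb hne hsc (fair_of_nested h') hμ
  have e' : κ.map (rs0 V) = lawS P' G' := e
  rw [← e'] at h1 h2 h3
  exact ⟨ae_of_ae_map hm h1, h2, h3 ▸ hμ⟩

/-- the frontier of a simply connected bounded domain is connected -/
theorem frontier_conn {O : Set ℂ} (hfc : ∃ (Θ : Type) (_ : MeasurableSpace Θ) (P : Measure Θ)
    (G : ℕ → Θ → NonemptyCompacts ℂ) (H : ℕ → Θ → (ℂ → ℝ) → ℝ), IsProbabilityMeasure P ∧
      IsSignedCarpets P O G H) : IsConnected (frontier O) := by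
  obtain ⟨Θ, mΘ, P, G, H, hP, h⟩ := hfc
  obtain ⟨x, hx1, hx2⟩ := (h.zero.and h.conn).exists
  rw [← hx1.1]
  exact hx2 0

/-- **(SW)** the restriction property -/
theorem restr_of (hR : RESTR) (hD : DJ) (hS : HSC) (ho : IsOpen Ω) (hb : Bornology.IsBounded Ω)
    (hne : Ω.Nonempty) (hsc : SimplyConnectedSpace Ω) (h : NCLE.Nested P Ω G ξ Γ) :
    Restr P Ω G Γ := by
  intro K hK hKc hΩK
  have hf := fair_of h
  have hP := h.prob
  obtain ⟨X, mX, ν, κ, b, hν, hκ, hdis, hy⟩ :=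
    hR Ω ho hb hne hsc Θ inferInstance P G _ h.prob h.carp K hK hKc hΩK
  have hν4 : IsNestedCLE4 Ω (P.map Γ) :=
    YD.isNestedCLE4_iff.2 ⟨Θ, inferInstance, P, G, ξ, Γ,
      ⟨h.prob, h.meas, h.loops, h.measξ, h.sgn, h.fair, h.indξ, h.measG, h.indG, h.carp⟩, rfl⟩
  obtain ⟨h1, h2, h3⟩ := gam_law ho hb hne hsc hf hν4
  have hfc : IsConnected (frontier Ω) := frontier_conn ⟨Θ, inferInstance, P, G, _, hP, h.carp⟩
  refine ⟨X, mX, ν, κ, b, Gam Ω, hν, hκ, hdis, h2, ?_, ?_⟩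
  · have h4 : ∀ᵐ x ∂P, HoleLoops Ω (fun k => G k x) (Gam Ω (fun k => G k x)) :=
      ae_of_ae_map (measurable_seq hf).aemeasurable h1
    filter_upwards [h4, h.loops] with x hx hx'
    exact holeLoops_unique hx hx'
  -- disjointness on the canonical space
  have hdj : ∀ᵐ s ∂(lawS P G), ∀ U U', IsHole Ω (s 1) U → IsHole Ω (s 1) U' → U ≠ U' →
      Disjoint (closure U) (closure U') := lawS_dj hD ho hb hne hsc hf
  have hall : ∀ᵐ s ∂(ν.bind κ), HoleLoops Ω s (Gam Ω s) ∧ Mon Ω s ∧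
      ∀ U U', IsHole Ω (s 1) U → IsHole Ω (s 1) U' → U ≠ U' →
      Disjoint (closure U) (closure U') := by
    rw [← hdis]
    filter_upwards [h1, lawS_mon hf, hdj] with s h4 h5 h6
    exact ⟨h4, h5, h6⟩
  filter_upwards [hy, Measure.ae_ae_of_ae_comp hall] with y hy hys
  obtain ⟨hy1, hy2, hy3⟩ := hy
  have hclo : ∀ s : SQ, HoleLoops Ω s (Gam Ω s) → IsClosed (KK Ω K (s 1)) := by
    intro s hs
    refine isClosed_KK hK (fun ε hε => ?_) hb
    refine ((hs.fin ε hε).image Prod.snd).subset ?_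
    rintro U ⟨hU, hd⟩
    exact ⟨(1, U), ⟨le_rfl, hU, hd⟩, rfl⟩
  -- the set `b y`
  obtain ⟨s0, hs0, hs0'⟩ := (hy1.and hys).exists
  have hbc : IsClosed (b y) := hs0 ▸ hclo s0 hs0'.1
  have hbn : IsConnected (b y) := hs0 ▸ isConnected_KK hKc (s0 1)
  have hbΩ : Ωᶜ ⊆ b y := by
    rw [← hs0]
    exact hΩK.trans (sub_KK _ _ _)
  have hAb : ∀ V, IsHole Ω (Ab Ω (b y)) V ↔ IsHole Ω (b y) V := fun V =>
    isHole_Ab hb hfc.nonempty hbc hbΩ ho
  have hAc := isConnected_Ab hb hfc hbc hbn hbΩ ho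
  have hAf := frontier_sub_Ab hb hfc.nonempty hbc hbΩ ho
  have hsit : ∀ s : SQ, KK Ω K (s 1) = b y → HoleLoops Ω s (Gam Ω s) → Mon Ω s → Sit Ω K s :=
    fun s h4 h5 h6 => ⟨ho, hb, h6, hclo s h5⟩
  have hole : ∀ V, IsHole Ω (b y) V → IsOpen V ∧ SimplyConnectedSpace V ∧
      AEMeasurable (fun s => rs0 V s) (κ y) ∧
      (∀ᵐ s ∂(κ y), HoleLoops V (rs0 V s) (Gam V (rs0 V s))) ∧
      AEMeasurable (Gam V) ((κ y).map (rs0 V)) ∧
      IsNestedCLE4 V (((κ y).map (rs0 V)).map (Gam V)) := by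
    intro V hV
    have hV' := (hAb V).2 hV
    have hVo := hole_isOpen ho hV'
    have hVs := hS Ω (Ab Ω (b y)) V ho hb hAc hAf hV'
    have hVm : AEMeasurable (fun s => rs0 V s) (κ y) :=
      (hy2 1 (fun _ => V) (Function.injective_of_subsingleton _) fun _ => hV).1 0
    exact ⟨hVo, hVs, hVm, one_comp hVo (hole_bdd hb hV') (hole_ne hV') hVs hVm
      fun Θ' mΘ' P' G' H' h1 h2 => hy3 V hV Θ' mΘ' P' G' H' h1 h2⟩
  have ins : ∀ V, IsHole Ω (b y) V →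
      (fun s => NCLE.inside (Gam Ω s) V) =ᵐ[κ y] (Gam V) ∘ (fun s => rs0 V s) := by
    intro V hV
    filter_upwards [hy1, hys, (hole V hV).2.2.2.1] with s h4 h5 h6
    exact inside_rs0 (hsit s h4 h5.1 h5.2.1) (h4.symm ▸ hV) h5.1 h6
  refine ⟨?_, fun m V hinj hV => ⟨?_, fun i => ?_⟩⟩
  · filter_upwards [hy1, hys] with s h4 h5
    refine ⟨h5.1, h4, fun l hl => ?_⟩
    rw [← h4]
    exact loop_cases0 (hsit s h4 h5.1 h5.2.1) hΩK h5.1 h5.2.2 l hl
  · refine (iIndepFun_congr fun i => ins (V i) (hV i)).2 ?_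
    exact (hy2 m V hinj hV).2.comp₀ (fun i => Gam (V i)) (fun i => (hole (V i) (hV i)).2.2.1)
      fun i => (hole (V i) (hV i)).2.2.2.2.1
  · obtain ⟨q1, q2, q3, q4, q5, q6⟩ := hole (V i) (hV i)
    have q7 : AEMeasurable (Gam (V i) ∘ fun s => rs0 (V i) s) (κ y) := q5.comp_aemeasurable q3
    refine ⟨q1, q2, q7.congr (ins (V i) (hV i)).symm, ?_⟩
    rw [Measure.map_congr (ins (V i) (hV i)), ← AEMeasurable.map_map_of_aemeasurable q5 q3]
    exact q6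

end

end Vale.Agent.P155.SWR
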