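import Vale.Agent.P155.SW801.Defs
import Vale.Agent.P155.NO801.Y4b

/-!
# P155 (SW): topology of `KK`
-/

namespace Vale.Agent.P155.SWR

open Set MeasureTheory Filter Topology TopologicalSpace ProbabilityTheory Vale.Agent.P155
  Vale.Agent.P155.Q1 Vale.Agent.P155.NO801.Y Metric

variable {Ω K : Set ℂ} {A : NonemptyCompacts ℂ}

theorem sub_KK (Ω K A : Set ℂ) : K ⊆ KK Ω K A := subset_union_left

theorem touched_sub {Ω K A : Set ℂ} {U : Set ℂ} (hU : IsHole Ω A U) (h : (closure U ∩ K).Nonempty) :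
    closure U ⊆ KK Ω K A :=
  fun _ hx => Or.inr ⟨closure U, ⟨U, hU, h, rfl⟩, hx⟩

/-- two holes which meet are equal -/
theorem hole_meet {U U' : Set ℂ} (hU : IsHole Ω A U) (hU' : IsHole Ω A U')
    (h : (U ∩ U').Nonempty) : U = U' := by
  obtain ⟨x, hx, hx'⟩ := h
  exact (hole_eq hU hx).trans (hole_eq hU' hx').symm

theorem isClosed_KK (hK : IsClosed K) (hfin : ∀ ε : ℝ, 0 < ε →
    {U | IsHole Ω A U ∧ ε < diam U}.Finite) (hb : Bornology.IsBounded Ω) :
    IsClosed (KK Ω K A) := by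
  refine isClosed_of_closure_subset fun x hx => ?_
  by_cases hxK : x ∈ K
  · exact sub_KK _ _ _ hxK
  obtain ⟨r, hr, hrK⟩ := Metric.isOpen_iff.1 hK.isOpen_compl x hxK
  set F : Set (Set ℂ) := {U | IsHole Ω A U ∧ r / 4 < diam U} with hF
  have hFf : F.Finite := hfin (r / 4) (by positivity)
  set S : Set ℂ := ⋃ U ∈ {U | U ∈ F ∧ (closure U ∩ K).Nonempty}, closure U with hS
  have hSc : IsClosed S := (hFf.subset fun U hU => hU.1).isClosed_biUnion fun U _ => isClosed_closure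
  have hSK : S ⊆ KK Ω K A := by
    intro y hy
    simp only [hS, mem_iUnion] at hy
    obtain ⟨U, ⟨hU, ht⟩, hy⟩ := hy
    exact touched_sub hU.1 ht hy
  apply hSK
  rw [← hSc.closure_eq, Metric.mem_closure_iff]
  intro ε hε
  obtain ⟨y, hy, hxy⟩ := Metric.mem_closure_iff.1 hx (min ε (r / 2)) (by positivity)
  refine ⟨y, ?_, hxy.trans_le (min_le_left _ _)⟩
  have hxy' : dist x y < r / 2 := hxy.trans_le (min_le_right _ _)
  rcases hy with hy | ⟨C, ⟨U, hU, ht, rfl⟩, hy⟩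
  · exact absurd hy (hrK (by rw [mem_ball, dist_comm]; linarith))
  · simp only [hS, mem_iUnion]
    refine ⟨U, ⟨⟨hU, ?_⟩, ht⟩, hy⟩
    obtain ⟨p, hp, hpK⟩ := ht
    have h1 : r ≤ dist x p := by
      by_contra hlt
      push Not at hlt
      exact hrK (by rw [mem_ball, dist_comm]; exact hlt) hpK
    have h2 : dist y p ≤ diam (closure U) :=
      dist_le_diam_of_mem (hole_bdd hb hU).closure hy hp
    rw [diam_closure] at h2
    have h3 := dist_triangle x y p
    show r / 4 < diam U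
    linarith

theorem isConnected_KK (hKc : IsConnected K) (A : NonemptyCompacts ℂ) :
    IsConnected (KK Ω K A) := by
  obtain ⟨x0, hx0⟩ := hKc.nonempty
  refine ⟨⟨x0, sub_KK _ _ _ hx0⟩, isPreconnected_of_forall x0 fun y hy => ?_⟩
  rcases hy with hy | ⟨C, ⟨U, hU, ⟨p, hp, hpK⟩, rfl⟩, hy⟩
  · exact ⟨K, sub_KK _ _ _, hx0, hy, hKc.isPreconnected⟩
  · refine ⟨K ∪ closure U, union_subset (sub_KK _ _ _) (touched_sub hU ⟨p, hp, hpK⟩),
      Or.inl hx0, Or.inr hy, ?_⟩
    exact hKc.isPreconnected.union p hpK hp (hole_conn hU).closure.isPreconnected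

/-! ### the compact version -/

/-- `b ∩ closure Ω` as a compact set -/
noncomputable def Ab (Ω b : Set ℂ) : NonemptyCompacts ℂ := toNC (b ∩ closure Ω)

theorem coe_Ab {b : Set ℂ} (hb : Bornology.IsBounded Ω) (hne : (frontier Ω).Nonempty)
    (hbc : IsClosed b) (hΩ : Ωᶜ ⊆ b) (ho : IsOpen Ω) : (Ab Ω b : Set ℂ) = b ∩ closure Ω := by
  unfold Ab toNC
  have h1 : IsCompact (b ∩ closure Ω) := hb.isCompact_closure.inter_left hbc
  have h2 : (b ∩ closure Ω).Nonempty := by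
    obtain ⟨x, hx⟩ := hne
    rw [ho.frontier_eq] at hx
    exact ⟨x, hΩ hx.2, hx.1⟩
  rw [dif_pos ⟨h1, h2⟩]
  rfl

theorem diff_Ab {b : Set ℂ} (hb : Bornology.IsBounded Ω) (hne : (frontier Ω).Nonempty)
    (hbc : IsClosed b) (hΩ : Ωᶜ ⊆ b) (ho : IsOpen Ω) : Ω \ (Ab Ω b : Set ℂ) = Ω \ b := by
  rw [coe_Ab hb hne hbc hΩ ho]
  ext x
  constructor
  · rintro ⟨h1, h2⟩
    exact ⟨h1, fun h3 => h2 ⟨h3, subset_closure h1⟩⟩
  · rintro ⟨h1, h2⟩
    exact ⟨h1, fun h3 => h2 h3.1⟩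

theorem isHole_Ab {b V : Set ℂ} (hb : Bornology.IsBounded Ω) (hne : (frontier Ω).Nonempty)
    (hbc : IsClosed b) (hΩ : Ωᶜ ⊆ b) (ho : IsOpen Ω) : IsHole Ω (Ab Ω b) V ↔ IsHole Ω b V := by
  unfold IsHole
  rw [diff_Ab hb hne hbc hΩ ho]

theorem frontier_sub_Ab {b : Set ℂ} (hb : Bornology.IsBounded Ω) (hne : (frontier Ω).Nonempty)
    (hbc : IsClosed b) (hΩ : Ωᶜ ⊆ b) (ho : IsOpen Ω) : frontier Ω ⊆ (Ab Ω b : Set ℂ) := by
  rw [coe_Ab hb hne hbc hΩ ho]
  intro x hx
  rw [ho.frontier_eq] at hx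
  exact ⟨hΩ hx.2, hx.1⟩

theorem isConnected_Ab {b : Set ℂ} (hb : Bornology.IsBounded Ω) (hfc : IsConnected (frontier Ω))
    (hbc : IsClosed b) (hbn : IsConnected b) (hΩ : Ωᶜ ⊆ b) (ho : IsOpen Ω) :
    IsConnected (Ab Ω b : Set ℂ) := by
  rw [coe_Ab hb hfc.nonempty hbc hΩ ho]
  have hfs : frontier Ω ⊆ b ∩ closure Ω := by
    intro x hx
    rw [ho.frontier_eq] at hx
    exact ⟨hΩ hx.2, hx.1⟩
  refine ⟨hfc.nonempty.mono hfs, ?_⟩
  have hcl : IsClosed (b ∩ closure Ω) := hbc.inter isClosed_closure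
  rw [isPreconnected_closed_iff]
  intro t t' ht ht' hcov h1 h2
  by_contra hne
  rw [not_nonempty_iff_eq_empty] at hne
  -- the frontier lies in one of the two parts
  wlog hft : frontier Ω ⊆ t generalizing t t' with H
  · refine H t' t ht' ht (by rwa [union_comm]) h2 h1 (by rw [inter_comm t' t]; exact hne) ?_
    have h3 := isPreconnected_closed_iff.1 hfc.isPreconnected t t' ht ht' (hfs.trans hcov)
    obtain ⟨x, hx, hxt⟩ := not_subset.1 hft
    have hxt' : x ∈ t' := (hcov (hfs hx)).resolve_left hxt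
    intro y hy
    by_contra hyt'
    have hyt : y ∈ t := (hcov (hfs hy)).resolve_right hyt'
    obtain ⟨w, hw, hw2⟩ := h3 ⟨y, hy, hyt⟩ ⟨x, hx, hxt'⟩
    have : w ∈ b ∩ closure Ω ∩ (t ∩ t') := ⟨hfs hw, hw2⟩
    rw [hne] at this
    exact this
  have h4 := isPreconnected_closed_iff.1 hbn.isPreconnected ((b ∩ closure Ω ∩ t) ∪ Ωᶜ)
    (b ∩ closure Ω ∩ t') ((hcl.inter ht).union ho.isClosed_compl) (hcl.inter ht') (by
      intro x hx
      by_cases hxΩ : x ∈ Ω
      · have hx' : x ∈ b ∩ closure Ω := ⟨hx, subset_closure hxΩ⟩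
        rcases hcov hx' with h | h
        · exact Or.inl (Or.inl ⟨hx', h⟩)
        · exact Or.inr ⟨hx', h⟩
      · exact Or.inl (Or.inr hxΩ)) (by
      obtain ⟨x, hx, hxt⟩ := h1
      exact ⟨x, hx.1, Or.inl ⟨hx, hxt⟩⟩) (by
      obtain ⟨x, hx, hxt⟩ := h2
      exact ⟨x, hx.1, hx, hxt⟩)
  obtain ⟨x, hxb, hx1, hx2⟩ := h4
  rcases hx1 with hx1 | hx1
  · have : x ∈ b ∩ closure Ω ∩ (t ∩ t') := ⟨hx2.1, hx1.2, hx2.2⟩
    rw [hne] at this
    exact this
  · have hxf : x ∈ frontier Ω := by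
      rw [ho.frontier_eq]
      exact ⟨hx2.1.2, hx1⟩
    have : x ∈ b ∩ closure Ω ∩ (t ∩ t') := ⟨hx2.1, hft hxf, hx2.2⟩
    rw [hne] at this
    exact this

/-! ### holes and components of the complement -/

section

variable {V : Set ℂ}

theorem comp_open (ho : IsOpen Ω) {b : Set ℂ} (hbc : IsClosed b) (hV : IsHole Ω b V) :
    IsOpen V := by
  obtain ⟨z, -, rfl⟩ := hV
  exact (ho.sdiff hbc).connectedComponentIn

theorem comp_sub {b : Set ℂ} (hV : IsHole Ω b V) : V ⊆ Ω \ b := by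
  obtain ⟨z, -, rfl⟩ := hV
  exact connectedComponentIn_subset _ _

theorem comp_eq {b : Set ℂ} (hV : IsHole Ω b V) {w : ℂ} (hw : w ∈ V) :
    V = connectedComponentIn (Ω \ b) w := by
  obtain ⟨z, -, rfl⟩ := hV
  exact connectedComponentIn_eq hw

theorem comp_frontier (ho : IsOpen Ω) {b : Set ℂ} (hbc : IsClosed b) (hV : IsHole Ω b V) :
    Disjoint (frontier V) (Ω \ b) := by
  rw [disjoint_left]
  intro w hw hwO
  have hop : IsOpen (connectedComponentIn (Ω \ b) w) := (ho.sdiff hbc).connectedComponentIn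
  have hww : w ∈ connectedComponentIn (Ω \ b) w := mem_connectedComponentIn hwO
  obtain ⟨x, hx1, hx2⟩ := mem_closure_iff.1 (frontier_subset_closure hw) _ hop hww
  have e : connectedComponentIn (Ω \ b) w = V := by
    rw [comp_eq hV hx2]
    exact connectedComponentIn_eq hx1
  rw [e] at hww
  rw [(comp_open ho hbc hV).frontier_eq] at hw
  exact hw.2 hww

/-- a hole which meets `KK` is touched -/
theorem touched_of_meet (ho : IsOpen Ω) {U : Set ℂ} (hU : IsHole Ω A U) {x : ℂ} (hx : x ∈ U)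
    (hxb : x ∈ KK Ω K A) : (closure U ∩ K).Nonempty := by
  rcases hxb with hxK | ⟨C, ⟨U', hU', ht, rfl⟩, hx'⟩
  · exact ⟨x, subset_closure hx, hxK⟩
  · obtain ⟨y, hy, hy'⟩ := mem_closure_iff.1 hx' U (hole_isOpen ho hU) hx
    rw [hole_meet hU hU' ⟨y, hy, hy'⟩]
    exact ht

/-- the boundary of a component of the complement of `KK` lies in the carpet -/
theorem frontier_comp (ho : IsOpen Ω) (hfr : frontier Ω ⊆ (A : Set ℂ))
    (hbc : IsClosed (KK Ω K A)) (hV : IsHole Ω (KK Ω K A) V) : frontier V ⊆ (A : Set ℂ) := by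
  intro w hw
  have h1 : w ∈ closure Ω :=
    closure_mono ((comp_sub hV).trans sdiff_subset) (frontier_subset_closure hw)
  by_cases hwΩ : w ∈ Ω
  · by_contra hwA
    have hwb : w ∈ KK Ω K A := by
      by_contra hwb
      exact disjoint_left.1 (comp_frontier ho hbc hV) hw ⟨hwΩ, hwb⟩
    set U := connectedComponentIn (Ω \ (A : Set ℂ)) w with hUd
    have hU : IsHole Ω A U := ⟨w, ⟨hwΩ, hwA⟩, rfl⟩
    have hwU : w ∈ U := mem_connectedComponentIn ⟨hwΩ, hwA⟩
    have ht := touched_of_meet ho hU hwU hwb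
    obtain ⟨x, hx1, hx2⟩ := mem_closure_iff.1 (frontier_subset_closure hw) U (hole_isOpen ho hU)
      hwU
    exact (comp_sub hV hx2).2 (touched_sub hU ht (subset_closure hx1))
  · exact hfr (by rw [ho.frontier_eq]; exact ⟨h1, hwΩ⟩)

/-- a hole which meets a component of the complement of `KK` lies in it -/
theorem hole_sub_comp (ho : IsOpen Ω) {U : Set ℂ} (hU : IsHole Ω A U)
    (hV : IsHole Ω (KK Ω K A) V) (h : (U ∩ V).Nonempty) : U ⊆ V := by
  obtain ⟨x, hx, hxV⟩ := h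
  rw [comp_eq hV hxV]
  refine (hole_conn hU).isPreconnected.subset_connectedComponentIn hx ?_
  intro y hy
  refine ⟨(hole_sub hU hy).1, fun hyb => ?_⟩
  exact (comp_sub hV hxV).2 (touched_sub hU (touched_of_meet ho hU hy hyb) (subset_closure hx))

/-- a hole is touched, or its closure lies in a component of the complement of `KK` -/
theorem hole_cases (hΩK : Ωᶜ ⊆ K) {U : Set ℂ} (hU : IsHole Ω A U)
    (hdj : ∀ U', IsHole Ω A U' → U ≠ U' → Disjoint (closure U) (closure U')) :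
    closure U ⊆ KK Ω K A ∨ ∃ V, IsHole Ω (KK Ω K A) V ∧ closure U ⊆ V := by
  by_cases ht : (closure U ∩ K).Nonempty
  · exact Or.inl (touched_sub hU ht)
  · right
    rw [not_nonempty_iff_eq_empty] at ht
    obtain ⟨x, hx⟩ := hole_ne hU
    have hsub : closure U ⊆ Ω \ KK Ω K A := by
      intro y hy
      have hyK : y ∉ K := fun h => by
        have : y ∈ closure U ∩ K := ⟨hy, h⟩
        rw [ht] at this
        exact this
      refine ⟨?_, ?_⟩
      · by_contra h
        exact hyK (hΩK h)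
      · rintro (h | ⟨C, ⟨U', hU', ht', rfl⟩, hy'⟩)
        · exact hyK h
        · by_cases he : U = U'
          · subst he
            rw [ht] at ht'
            exact ht'.ne_empty rfl
          · exact disjoint_left.1 (hdj U' hU' he) hy hy'
    refine ⟨connectedComponentIn (Ω \ KK Ω K A) x, ⟨x, hsub (subset_closure hx), rfl⟩, ?_⟩
    exact (hole_conn hU).closure.isPreconnected.subset_connectedComponentIn (subset_closure hx)
      hsub

end

end Vale.Agent.P155.SWR
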